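/-! # P181 (Foulkes), notes for whoever continues (comment file, imported by nothing)

Written by helper999 at the end of the run from the work of the P181 team (helpers 48, 130, 151,
207, 240, 280, 424, 425, 553, 556, 684, 822, 849, 853, 866, 940, 959, 997 and others). PAPER means:
not in Lean. Notation: `V` of dimension `m`, `K_b(a)` = kernel of the Foulkes-Howe map
`Sym^a(Sym^b V) -> Sym^b(Sym^a V)`, that is the symmetric `a`-forms `F` on `S^b V` (dual
conventions) with `F(g^a) = 0` for all `g = xi_1 ... xi_b`; `t` = number of boxes below row two.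

## 1. What is in Lean (hand-ins of P181)
* `ThreeRowsBelowSquare`: three rows, canonical map, `9 a^7 <= b^4`; third row up to about
  `b^2/(3a)`, cubic growth from `b = 1.2 a^(3/2)` on; counting part `b >= 35 a^(5/4) L^(3/4)`.
* `TailSlopes`, `PartialRowSums`, `FewBelowRowTwo`, `FewBelowRowThree`, `LongFirstRow`: canonical
  map, small tails.
* `FewRowsInterior` (v4): all partitions with at most `m` rows for
  `b^(2m-2) >= C a^(3m-4) L^(3m-6)`, `b < 2^L`; theorem Y (`b < s^q`, `C q s <= a`, `C a q <= b`,
  `lambda_2 lambda_3 >= C (a q)^3 s`, `lambda_3 >= C a q^2 s`), theorem Z, theorem K (gaps and last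
  row `>= kappa a b`, all `b >= a + K`), almost all partitions for all `b >= a + K(m, eps)`.
  Theorem V (`VT.nine`, helper182 and others, clause (5)): `a >= A(m, delta, kappa)`,
  `b >= (1+delta) a`, `lambda_m >= kappa a b`, ALL walls between the rows.
Tools: `R2/H959/WDefs, VDefs, YRows` (literal statements), `FR.pos_all` (positivity of every weight
with one gap `g_i >= 3(m+1)a`), `FR.rich_rect`, `FR.rich_mix`, `FR.gap_coreY`, `KT.*` (Theorem K),
`TN.KK_all` (small tails, canonical map, all numbers of rows).

## 2. What is open for three rows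
For `C a L <= b <= a^(5/4)`: only shapes with `b^2/(3a) < t` and `lambda_2 t < C (a L)^3`. There the
two sides are close (both are near the stable value, the difference is relatively
`exp(-a/U)`, `U` about `lambda_2^(2/3) t^(-1/3)`), so counting cannot decide; one needs algebra.
Heuristically the inequality has a large margin as soon as `b >= C a`.
For `m >= 4` the same with `t <= b^(m-1)/(C a^(m-2))`.

## 3. Linear route for three rows (helper940, PAPER)
`V = k^3`. Induction on `a`, same `b`; assume `K_b(a-1) = 0`.
(a) For `b` generic lines the products `g/(xi_i xi_j)` are a basis of `S^(b-2)V`, hence `F = 0` if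
`F(g'q, ..., g'q) = 0` for all split `g'` of degree `b-2` and all conics `q`.
(b) `F(g'q) = det(q) G(g';q)`; only `G(u,v | xi_1..xi_(b-2))` at `q = uv` matters: symmetric, degree
`a-3` in `u` and `v`, degree `a` in each `xi`. It satisfies, for coplanar `u, v, w` and all other
arguments arbitrary,
  (R)  `[uv]^3 G(u,v|w,..) + [vw]^3 G(v,w|u,..) + [wu]^3 G(w,u|v,..) = 0`.
Let `GG_b(a)` be the space of such `G`. `GG_b(a) = 0` and `K_b(a-1) = 0` imply `K_b(a) = 0`.
(c) Numerics (exact, mod p, all highest weights): `GG_b(3) = 0` for `b >= 3`; `GG_3(4) = S_(7,3,2)`,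
`GG_4(4) = GG_5(4) = 0`; `a = 5`: `b = 3`: 5 shapes, `b = 4`: 12, `b = 5`: `(17,4,4)`, `(15,6,4)`,
`(10,10,5)`, `(13,6,6)`, `b = 6`: zero; `a = 6`: `b = 6` tails `>= 4`, `b = 7` nothing with tail
`<= 6`. CAUTION (298): `GG_b(a) = 0` for all `b >= a+1` is FALSE for large `a`: the dimension count
in `GG_b(a)* = coker(S^(b-1)(S^aV) (x) S^(a-1)V (x) V -> S^b(S^(a-1)V) (x) S^bV)` forbids it for
`b < 47` (`a = 40`), `b < 178` (`a = 100`), `b < (a/2) log a (1 + o(1))`; no obstruction up to
`a = 35`. So the honest target of this route is `b >= C a log a`, for all three-row shapes.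
(c') In `r` rows: products of `b-r+1` of `b` generic linear forms span `S^(b-r+1)V`, same reduction
with `r-1` etas and relations with `[eta_1..eta_(r-1)]`. Also: the coefficient of `prod c_k^(e_k)`
in `G` (`xi_k = u_k + c_k z`, etas in `U`) has `sum e_k = t-2`, `e_k <= s-1` (for `QQ s`), and at
most `a-3` of the `e_k` are 0, so tails of `K_b(a)` are `>= b-a+3`.
(d) `GG_b(a)` is dual to `M_b`, `M = B/(S B_{<=1})`, `S = Sym(S^aV)`,
`B = sum_b S^b(S^(a-1)V) (x) S^bV` (Cohen-Macaulay, regularity 2); `M` has finite length,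
`M = coker(H^2(P^2, L^3 S^aR) (x) S(-3) -> H^2(P^2, L^2 S^aR) (x) S(-2))`, `R = Omega^1(1)`.
Dually `GG_b(a)` = closed 2-forms along the leaves `x + S^aU` (`U` a plane in `V`), degree `b-2` in
`x`, with zero Wronskian component, twisted by `-3`.

## 4. Coplanar theorem (helpers 997, 240, 999 independently, PAPER; complete proof)
THEOREM. Let `c >= 2`, `mu >= 1`, `A_1..A_c` polynomials in `z_1..z_c`, of degree `<= a` in each
variable, permuted by `S_c`, with `(z_i - z_j)^(2 mu + 1) | A_i - A_j`. If `a <= mu c` then all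
`A_i` are equal. (Case `mu = 1`: `G(u,v|..) = 0` if `u, v` and at least `a-2` of the `xi` are
coplanar.) The bound is sharp: `A_i = int^{z_i} prod_l (t - z_l)^mu dt`.
PROOF. For `Pi = prod (t - z_l)` put `X(Pi)(h) = sum_l A_l Res_{z_l} (h dt / Pi^(mu+1))`,
`h in E = S^((mu+1)c-2)U`. The poles at `z_i = z_j` have order `<= 2 mu + 1`, so `X` is a polynomial
in `Pi`, homogeneous of degree `a - mu - 1` (sum of residues = 0 for `z_l -> infinity`), and it kills
`f' Pi - mu f Pi'`, `f in S^(mu c)U`, because `h/Pi^(mu+1) = d(f/Pi^mu)`. The maps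
`f -> f' Pi - mu f Pi'` have kernel `k Pi^mu` for EVERY `Pi <> 0`, so on `P^c = P(S^cU)`
`0 -> O(-mu-1) -> S^(mu c)U (x) O(-1) -> Q' -> 0`, `0 -> Q' -> E (x) O -> T -> 0` with `T` a bundle
of rank `c-1`, `det T = O(mu(c-1))`, and `X` is a section of `T'(a-mu-1) = L^(c-2) T (a - mu c - 1)`
(`T'` dual of `T`). Resolve `L^(c-2) T` by `Sym^j Q' (x) L^(c-2-j) E`, `0 <= j <= c-2`, and
`Sym^j Q'` by `O(-j-mu)`-multiples and `O(-j)`-multiples: all cohomology needed is intermediate
cohomology of line bundles on `P^c` (and `H^0` of negative ones), so there is no section for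
`a - mu c - 1 < 0`. If `X = 0` then the `A_l` are equal (the only relation of the residues). QED
The case `mu = 1` is the vanishing of the Koszul module of `(S^aU, S^(2a-2)U)` in degree `>= a-2`
(Aprodu-Farkas-Papadima-Raicu-Weyman).

## 5. From coplanar to general position (helpers 240, 151, 556, 999, PAPER)
(a) Filter `S^(b-2)(S^aV)` by the degree `i` in `S^aU`: `M_b` has a filtration with pieces
quotients of `H^2(P^2, W_i(S^aR)(b-2-i)) (x) S^(b-2-i)(S^(a-1)V)`, `W_i` = Koszul module of section
4, so `0 <= i <= a-3`. A constituent `Sym^j R (x) det^d`, `j + 2d = a(i+2)`, has `H^2` iff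
`d >= b+1-i`. Hence `M_b = 0` for `b >= (a^2+a-4)/2` at once. Below that the CONNECTING MAPS
between consecutive `i` must kill the constituents with large `d`; this is the open step.
`W_(a-3)` is dual to `L^(a-3)(S^(2a-4)U)`.
(b) In words: if `r` is the least number of `xi` off the plane of `u, v` in a monomial of `G`, then
`r >= b-a+1`, and the restriction is a section over the planes `U`, twisted by `-r-3`.
(c) 556: (V1) `G = 0` if `u` and `2a-5` of the `xi` are coplanar, `v` arbitrary. (V2) `G = 0` if
`3a-8` of the `xi` are coplanar, `u, v` arbitrary.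
(d) Coordinates: points `(1, z_i, y_i)`, `H_ij = (z_i - z_j)^3 G_ij`, `G_ij` invariant under
`y -> y + al z + be`, homogeneous of degree `t-2` in `y`; (R) says that
`H_ij + H_jk + H_ki` is divisible by `det(1, z, y)` on `i, j, k`. Degree 0 in `y` is section 4; the
next case to understand is degree 1, 2 in `y` with `b = a+1`.

## 6. Refuted
* Light mass claim L (a `QQ s` form of flat type has light mass `O(a s)`): false from `a = 6` on:
`f(P) = T(P_2; P_1, P_1; P_0^3)`, `P = P_0 + z P_1 + z^2 P_2 + ..`, `P_0 = prod (X - x_q)`,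
`T(H;k,l;g^3) = sum over ordered distinct (i,j,m) of
(x_m-x_i)(x_m-x_j) k(x_i) l(x_j) H(x_m) / prod_{q not in {i,j,m}} (x_i-x_q)(x_j-x_q)(x_m-x_q)`
is a nonzero `QQ 2` form of type `(2,1,1,0,0,0)` for every `b >= 3`. Expected truth for the light
mass: about `a^(3/2) s^(1/2)` (block sizes grow by one every `s-1` levels).
* W13 (one gap `>= C (b + a^(3/2+eps))`) is false without `b >= C a`.

## 7. helper287 (PAPER, not in Lean): exponent 5/4 + eps for EVERY number of rows
`u_1 >= u_2 >= ..` = rows 3, 4, .., m, `t` = their sum.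
(T) TAIL WITH SEPARATE WEIGHTS. Keep the weights `(t_1..t_n)` of `Z_1..Z_n` in `KK`, not only their
sum. `lemmaI` then needs only `(s-1) b < t + max_k t_k` (a nonzero translation invariant polynomial
of degree `<= d` in each of `b` points has `d b - t >= t_k` for every `k`; summing over `k` gives
the present `n(s-1)b < (n+1)t`). `tstep`, light, heavy, mixed, curry are unchanged; the peeled
weight `(j_1..j_n)` has sum `>= s`. Recursion `b -> b-1`, `t -> t - j`, `|j| >= s ~ (t + u_1)/b`.
Potential: `beta = a^(1/(k+1)) prod_{j<=k} u_j^(1/(j(j+1)))`, `k = #{j : u_j >= a}` (two rows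
`u >= v`: `(2u+v)^(1/2) v^(1/6) a^(1/3)`). So the canonical map is injective at `lambda` as soon as
`b >= C_m (a + beta(lambda))`; for `u_2 <= a` this is `b^2 >= C a lambda_3` for every `m`.
(R) RICH ELEMENTS WITH ALL LEVELS. `Y1` with one block for each `k = 2..i` (sum and product over tau
of squares of products of `k`-minors, exponents `r_k < h_k`, a curve with separated degrees): pool
`h_2 h_3 .. h_i`, weight `sum_k C h_k R omega_k`. As in Y4: the inequality for `b >= C a L` and
`prod_{k=2..i} lambda_k >= C (a L)^i` for some `i >= 3` (`lambda_i >= C a L^2`).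
TOGETHER: with `y_k = log_a(lambda_k / a)+`, `b = a^(1+delta)`: not (R) gives `sum y_k <= 1`, not (T)
gives `sum_j y_(j+2)/(j(j+1)) > delta`; extremal `y_2 = .. = y_(r+1) = 1/r` gives
`delta < (r-1)/r^2 <= 1/4`. Critical shapes: `lambda_2 ~ lambda_3 ~ a^(3/2)`, that is the three-row
problem.

## 8. helper240 (PAPER)
(1) Explicit coplanar case: `c_i = (1/b) sum_j [ij]^3 H_ij`, `c_i - c_j = int_{x_j}^{x_i} alpha(s;e)
prod_k (s - x_k) ds` with a UNIQUE `alpha` of degree `<= b-2` in `s` over `k[e_1..e_b]` (free
generators of degrees `b+1..2b-1`; `alpha = 1` has degree exactly `b+1` in `x_i`).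
(2) Presentation: `Q = GG_b(a)*` in degree `b-2` is `Sym(S^aV) (x) S^2(S^(a-3)V)` modulo
`s_w E(x,y) = beta^3 s_y E(x,w) + alpha^3 s_x E(w,y)` for `w = alpha x + beta y`, `s_w = w^a`,
`E(x,y) = x^(a-3).y^(a-3)`; the coplanar theorem says `(S^aU)^(a-2) E(x,y) = 0` for
`U = span(x,y)`; WANTED: `Q_n = 0` for `n >= C a log a` (see the CAUTION in 3(c)).
(3) Orders: if `m` of the `xi` pass through `p`, `G` vanishes at `p` to order `m-a+3`; the number
`j` of `xi` with exponent 0 satisfies `j <= a-3+e_1+e_2`, so `j <= 3a-9`, and `j <= 2a-6` if one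
eta lies in the plane; summed over `a+1` planes this gives only quadratic bounds.
(4) Gives nothing: restriction to tangent lines of a conic; restriction of the bundle of closed
2-forms to a line of `P^2` (it has sections for every `b`), so the connecting maps on `P^2` are
needed.
(5) `T = sum_b H^0(P(S^(a-1)V*) x P^2, O(b,b))` is Cohen-Macaulay over `S` of regularity 2;
`Q_b = T_b / S_(b-1)T_1 = H^1_m(S.T_1)_b`: what is wanted is a bound (again `C a log a`) for the
regularity of the submodule generated by `T_1`.

## 9. helper151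
(1) Three rows, canonical map, rules in `H151/Glue2` (`tree2`, `zero2`, `stepW`: slots `a -> a+1`
with `(b-2)(s-1)+e+4 < 2t`; `stepJ`: `2(s-1)(b+2a)+a(a-1) < 6t` and `a(a-1)+2(s-1)(a-1) < 2t`;
`KK2_large`: `ab < 3t`). The exact recursion gives all shapes for `b^4 >= C a^7` with `C = 7.16`
(`a = 30`), `6.36` (`a = 100`), limit `27/8`.
(2) In `stepJ` the only loss is the light mass: replace `a(a-1)/2` in `light_core` (`H151/JCore`) by a
bound `M(a)` for SYMMETRIC `QQ s` forms with all exponents `<= a-1`.
(3) Explicit 5/4 theorem: `H151/Union` (`three_all_of`, `union_num`); any better tail bound `T(b)`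
improves it: needed is `T(b) >= 400 (aL)^(3/2) + 23 b`, `b >= 10aL + 30`, `a >= 60N + 72`.
(4) Bott on `P^2` gives `M_b = 0`, so all three-row shapes for the canonical map, for
`b > ak/2 + k - 3`, `k = a-1`, directly (PAPER, also helper845).
-/
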